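import Vale.Agent.P365.T2.SmoothS755

/-!
# P365 T2 (label leads): the shift of the movable part of the uniform law.

`K` labels with masses `p k` and laws `ν k`, mixture `= nuL lam` (uniform law on `[-lam, lam]`); the
movable labels carry the smooth law `nuS a l` with `a < lam`.  For `|t| ≤ lam - a` the law of
`v + t 1{mov}` has the density `rr lam c a l t` with respect to `nuL lam`, `c` = mass of the movable
labels; `rr ≥ 0` and `rr t * rr (-t) ≥ 1 - CR t²`.
-/

set_option linter.all false

namespace P365T2.H985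

open MeasureTheory Set P365T1 P365T1.Bump P365T1.OneVar P365T1.Lab37 P365T1.Smooth755
open scoped ENNReal

/-- density ratio of the shift -/
noncomputable def rr (lam c a l t v : ℝ) : ℝ :=
  1 + 2 * lam * c * (rhoS a l (v - t) - rhoS a l v)

/-- constant of the product bound -/
noncomputable def CR (lam c a l : ℝ) : ℝ := 2 * lam * c * K2 a l + (2 * lam * c * K1 a l) ^ 2

theorem measurable_rr (lam c a l t : ℝ) : Measurable (rr lam c a l t) := by
  unfold rr
  exact (((measurable_rhoS a l).comp (measurable_id.sub_const t)).sub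
    (measurable_rhoS a l)).const_mul _ |>.const_add _

/-- `c rhoS ≤ 1 / (2 lam)` -/
theorem c_rhoS_le {lam c a l : ℝ} (hl : 0 < l) (h : l < a) (hlam : 0 < lam) (hc : 0 ≤ c)
    (hca : c * lam ≤ a - l) (v : ℝ) : c * rhoS a l v ≤ (2 * lam)⁻¹ := by
  have h0 : 0 < a - l := by linarith
  calc c * rhoS a l v ≤ c * (2 * (a - l))⁻¹ := mul_le_mul_of_nonneg_left (rhoS_le hl h v) hc
    _ ≤ (2 * lam)⁻¹ := by
        rw [← div_eq_mul_inv, inv_eq_one_div, div_le_div_iff₀ (by positivity) (by positivity)]
        nlinarith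

theorem rr_nonneg {lam c a l : ℝ} (hl : 0 < l) (h : l < a) (hlam : 0 < lam) (hc : 0 ≤ c)
    (hca : c * lam ≤ a - l) (t v : ℝ) : 0 ≤ rr lam c a l t v := by
  have h1 := c_rhoS_le hl h hlam hc hca v
  have h2 := rhoS_nonneg hl h (v - t)
  have h3 : 2 * lam * (c * rhoS a l v) ≤ 1 := by
    calc 2 * lam * (c * rhoS a l v) ≤ 2 * lam * (2 * lam)⁻¹ :=
          mul_le_mul_of_nonneg_left h1 (by positivity)
      _ = 1 := mul_inv_cancel₀ (by positivity)
  have h4 : 0 ≤ 2 * lam * c * rhoS a l (v - t) := by positivity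
  unfold rr
  nlinarith

theorem rr_sub_one_le {lam c a l : ℝ} (hl : 0 < l) (h : l < a) (hlam : 0 < lam) (hc : 0 ≤ c)
    (t v : ℝ) : |rr lam c a l t v - 1| ≤ 2 * lam * c * K1 a l * |t| := by
  unfold rr
  have h1 := rhoS_lip hl h (v - t) v
  have e : v - t - v = -t := by ring
  rw [e, abs_neg] at h1
  rw [add_sub_cancel_left, abs_mul, abs_of_nonneg (by positivity : 0 ≤ 2 * lam * c),
    mul_assoc (2 * lam * c)]
  exact mul_le_mul_of_nonneg_left h1 (by positivity)

theorem CR_nonneg {lam c a l : ℝ} (hl : 0 < l) (h : l < a) (hlam : 0 < lam) (hc : 0 ≤ c) :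
    0 ≤ CR lam c a l := by
  have := K2_nonneg hl h
  unfold CR
  positivity

/-- **product bound** -/
theorem rr_mul_ge {lam c a l : ℝ} (hl : 0 < l) (h : l < a) (hlam : 0 < lam) (hc : 0 ≤ c)
    (t v : ℝ) : 1 - CR lam c a l * t ^ 2 ≤ rr lam c a l t v * rr lam c a l (-t) v := by
  have h1 := rhoS_second hl h v t
  have h2 := rr_sub_one_le hl h hlam hc t v
  have h3 := rr_sub_one_le hl h hlam hc (-t) v
  rw [abs_neg] at h3
  obtain ⟨x, hx⟩ : ∃ x, x = rr lam c a l t v - 1 := ⟨_, rfl⟩
  obtain ⟨y, hy⟩ : ∃ y, y = rr lam c a l (-t) v - 1 := ⟨_, rfl⟩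
  rw [← hx] at h2
  rw [← hy] at h3
  have hs : x + y = 2 * lam * c * (rhoS a l (v + t) + rhoS a l (v - t) - 2 * rhoS a l v) := by
    rw [hx, hy]
    unfold rr
    rw [sub_neg_eq_add]
    ring
  have h4 : -(2 * lam * c * (K2 a l * t ^ 2)) ≤ x + y := by
    rw [hs, ← mul_neg]
    exact mul_le_mul_of_nonneg_left (abs_le.1 h1).1 (by positivity)
  have h5 : |x * y| ≤ (2 * lam * c * K1 a l * |t|) * (2 * lam * c * K1 a l * |t|) := by
    rw [abs_mul]
    exact mul_le_mul h2 h3 (abs_nonneg _) ((abs_nonneg _).trans h2)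
  have h6 := (abs_le.1 h5).1
  have h7 : (2 * lam * c * K1 a l * |t|) * (2 * lam * c * K1 a l * |t|) =
      (2 * lam * c * K1 a l) ^ 2 * t ^ 2 := by
    rw [← sq_abs t]
    ring
  rw [h7] at h6
  have e : rr lam c a l t v * rr lam c a l (-t) v = 1 + (x + y) + x * y := by
    rw [hx, hy]
    ring
  rw [e]
  unfold CR
  nlinarith

/-- density form of the remaining (non movable) part -/
theorem rest_eq {lam c a l : ℝ} (hl : 0 < l) (h : l < a) (hlam : 0 < lam) (hc : 0 ≤ c)
    (hca : c * lam ≤ a - l) (hal : a ≤ lam) {A : Measure ℝ}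
    (hA : A + ENNReal.ofReal c • nuS a l = P365L.TL.nuL lam) :
    A = volume.withDensity fun v => ENNReal.ofReal (rhoU lam v - c * rhoS a l v) := by
  haveI := isProbabilityMeasure_nuS hl h
  have hU : ∀ v, 0 ≤ rhoU lam v - c * rhoS a l v := by
    intro v
    by_cases hv : v ∈ Set.Icc (-lam) lam
    · rw [rhoU_of_mem hv]
      linarith [c_rhoS_le hl h hlam hc hca v]
    · have : rhoS a l v = 0 := by
        refine rhoS_supp hl h ?_
        by_contra h1
        push Not at h1
        rw [abs_le] at h1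
        exact hv ⟨by linarith [h1.1], by linarith [h1.2]⟩
      rw [this, rhoU_of_notMem hv]
      simp
  have hm1 : Measurable fun v : ℝ => ENNReal.ofReal (rhoU lam v - c * rhoS a l v) :=
    ((measurable_rhoU lam).sub ((measurable_rhoS a l).const_mul c)).ennreal_ofReal
  have key : (volume.withDensity fun v => ENNReal.ofReal (rhoU lam v - c * rhoS a l v)) +
      ENNReal.ofReal c • nuS a l = P365L.TL.nuL lam := by
    rw [nuS_eq hl h, ← withDensity_smul _ (measurable_rhoS a l).ennreal_ofReal,
      ← withDensity_add_left hm1, nuL_eq hlam]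
    congr 1
    funext v
    simp only [Pi.add_apply, Pi.smul_apply, smul_eq_mul]
    rw [← ENNReal.ofReal_mul hc, ← ENNReal.ofReal_add (hU v)
      (mul_nonneg hc (rhoS_nonneg hl h v))]
    congr 1
    ring
  ext s hs
  have h1 := congrArg (fun μ : Measure ℝ => μ s) (hA.trans key.symm)
  simp only [Measure.add_apply] at h1
  have h2 : (ENNReal.ofReal c • nuS a l) s ≠ ∞ := by
    rw [Measure.smul_apply, smul_eq_mul]
    exact ENNReal.mul_ne_top ENNReal.ofReal_ne_top (measure_ne_top _ _)
  exact (ENNReal.add_left_inj h2).1 h1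

/-- **shift of the smooth part, measure form** -/
theorem shift_two {lam c a l t : ℝ} (hl : 0 < l) (h : l < a) (hlam : 0 < lam) (hc : 0 ≤ c)
    (hca : c * lam ≤ a - l) (ht : |t| ≤ lam - a) {A : Measure ℝ}
    (hA : A + ENNReal.ofReal c • nuS a l = P365L.TL.nuL lam) :
    A + ENNReal.ofReal c • (nuS a l).map (fun v => v + t) =
      (P365L.TL.nuL lam).withDensity fun v => ENNReal.ofReal (rr lam c a l t v) := by
  have hal : a ≤ lam := by linarith [abs_nonneg t]
  have hA' := rest_eq hl h hlam hc hca hal hA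
  have hmt : Measurable fun v : ℝ => v + t := measurable_id.add_const t
  have hms : Measurable fun v : ℝ => ENNReal.ofReal (rhoS a l (v - t)) :=
    ((measurable_rhoS a l).comp (measurable_id.sub_const t)).ennreal_ofReal
  have hmap : (nuS a l).map (fun v => v + t) =
      volume.withDensity fun v => ENNReal.ofReal (rhoS a l (v - t)) := by
    ext s hs
    rw [Measure.map_apply hmt hs, nuS_eq hl h, withDensity_apply _ (hmt hs),
      withDensity_apply _ hs, ← lintegral_indicator (hmt hs), ← lintegral_indicator hs]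
    have e : ∀ v : ℝ, ((fun v => v + t) ⁻¹' s).indicator
        (fun v => ENNReal.ofReal (rhoS a l v)) v =
        (fun u => s.indicator (fun u => ENNReal.ofReal (rhoS a l (u - t))) u) (v + t) := by
      intro v
      by_cases hv : v + t ∈ s
      · rw [Set.indicator_of_mem (show v ∈ (fun v => v + t) ⁻¹' s from hv)]
        simp only
        rw [Set.indicator_of_mem hv, add_sub_cancel_right]
      · rw [Set.indicator_of_notMem (show v ∉ (fun v => v + t) ⁻¹' s from hv)]
        simp only
        rw [Set.indicator_of_notMem hv]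
    simp only [e]
    exact lintegral_add_right_eq_self
      (fun u => s.indicator (fun u => ENNReal.ofReal (rhoS a l (u - t))) u) t
  have hm1 : Measurable fun v : ℝ => ENNReal.ofReal (rhoU lam v - c * rhoS a l v) :=
    ((measurable_rhoU lam).sub ((measurable_rhoS a l).const_mul c)).ennreal_ofReal
  rw [hA', hmap, ← withDensity_smul _ hms, ← withDensity_add_left hm1, nuL_eq hlam,
    ← withDensity_mul _ (measurable_rhoU lam).ennreal_ofReal
      (measurable_rr lam c a l t).ennreal_ofReal]
  congr 1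
  funext v
  simp only [Pi.add_apply, Pi.smul_apply, Pi.mul_apply, smul_eq_mul]
  by_cases hv : v ∈ Set.Icc (-lam) lam
  · have h1 := c_rhoS_le hl h hlam hc hca v
    rw [rhoU_of_mem hv, ← ENNReal.ofReal_mul hc, ← ENNReal.ofReal_add (by linarith)
      (mul_nonneg hc (rhoS_nonneg hl h _)), ← ENNReal.ofReal_mul (by positivity)]
    congr 1
    unfold rr
    field_simp
    ring
  · have e0 : ∀ u : ℝ, a < |u| → rhoS a l u = 0 := fun u hu => rhoS_supp hl h hu
    have hv1 : lam < |v| := by
      by_contra h1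
      push Not at h1
      rw [abs_le] at h1
      exact hv ⟨h1.1, h1.2⟩
    have hv2 : a < |v - t| := by
      have := abs_sub_abs_le_abs_sub v t
      linarith
    rw [rhoU_of_notMem hv, e0 v (by linarith), e0 (v - t) hv2]
    simp

/-- **shift of the movable labels, measure form** -/
theorem shift_labels {K : Type*} [Fintype K] {mov : K → Prop} [DecidablePred mov] {p : K → ℝ}
    {ν : K → Measure ℝ} {lam a l t : ℝ} (hl : 0 < l) (h : l < a) (hlam : 0 < lam)
    (hp : ∀ k, 0 ≤ p k) (hmix : ∑ k, ENNReal.ofReal (p k) • ν k = P365L.TL.nuL lam)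
    (hmov : ∀ k, mov k → ν k = nuS a l)
    (hca : (∑ k, if mov k then p k else 0) * lam ≤ a - l) (ht : |t| ≤ lam - a) :
    ∑ k, ENNReal.ofReal (p k) • (ν k).map (fun v => v + if mov k then t else 0) =
      (P365L.TL.nuL lam).withDensity fun v =>
        ENNReal.ofReal (rr lam (∑ k, if mov k then p k else 0) a l t v) := by
  set c := ∑ k, if mov k then p k else 0 with hcdef
  have hc : 0 ≤ c := Finset.sum_nonneg fun k _ => by
    split_ifs
    · exact hp k
    · exact le_rfl
  set A : Measure ℝ := ∑ k, if mov k then 0 else ENNReal.ofReal (p k) • ν k with hAdef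
  have hsplit : ∀ μ : Measure ℝ, ∑ k, (if mov k then ENNReal.ofReal (p k) • μ else 0) =
      ENNReal.ofReal c • μ := by
    intro μ
    have e1 : ∀ k, (if mov k then ENNReal.ofReal (p k) • μ else 0) =
        (ENNReal.ofReal (if mov k then p k else 0)) • μ := by
      intro k
      split_ifs
      · rfl
      · simp
    simp only [e1]
    rw [← Finset.sum_smul, hcdef, ENNReal.ofReal_sum_of_nonneg fun k _ => by
      split_ifs
      · exact hp k
      · exact le_rfl]
  have hA : A + ENNReal.ofReal c • nuS a l = P365L.TL.nuL lam := by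
    rw [← hmix, ← hsplit (nuS a l), hAdef, ← Finset.sum_add_distrib]
    refine Finset.sum_congr rfl fun k _ => ?_
    by_cases hk : mov k
    · rw [if_pos hk, if_pos hk, zero_add, hmov k hk]
    · rw [if_neg hk, if_neg hk, add_zero]
  rw [← shift_two hl h hlam hc hca ht hA, ← hsplit, hAdef, ← Finset.sum_add_distrib]
  refine Finset.sum_congr rfl fun k _ => ?_
  by_cases hk : mov k
  · simp only [hk, if_true, zero_add]
    rw [hmov k hk]
  · simp only [hk, if_false, add_zero]
    rw [Measure.map_id']

/-- **shift of the movable labels, `ℝ≥0∞`-valued functions** -/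
theorem lintegral_shift_labels {K : Type*} [Fintype K] {mov : K → Prop} [DecidablePred mov]
    {p : K → ℝ} {ν : K → Measure ℝ} {lam a l t : ℝ} (hl : 0 < l) (h : l < a) (hlam : 0 < lam)
    (hp : ∀ k, 0 ≤ p k) (hmix : ∑ k, ENNReal.ofReal (p k) • ν k = P365L.TL.nuL lam)
    (hmov : ∀ k, mov k → ν k = nuS a l)
    (hca : (∑ k, if mov k then p k else 0) * lam ≤ a - l) (ht : |t| ≤ lam - a)
    {g : ℝ → ℝ≥0∞} (hg : Measurable g) :
    ∑ k, ENNReal.ofReal (p k) * ∫⁻ v, g (v + if mov k then t else 0) ∂(ν k) =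
      ∫⁻ v, ENNReal.ofReal (rr lam (∑ k, if mov k then p k else 0) a l t v) * g v
        ∂(P365L.TL.nuL lam) := by
  have key := shift_labels hl h hlam hp hmix hmov hca ht
  have h1 : ∫⁻ v, g v ∂(∑ k, ENNReal.ofReal (p k) •
      (ν k).map (fun v => v + if mov k then t else 0)) = _ :=
    congrArg (fun μ : Measure ℝ => ∫⁻ v, g v ∂μ) key
  rw [lintegral_withDensity_eq_lintegral_mul _ (measurable_rr lam _ a l t).ennreal_ofReal hg,
    lintegral_finset_sum_measure] at h1
  simp only [Pi.mul_apply] at h1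
  rw [← h1]
  refine Finset.sum_congr rfl fun k _ => ?_
  have hm : Measurable fun v : ℝ => v + if mov k then t else 0 := measurable_id.add_const _
  rw [lintegral_smul_measure, lintegral_map hg hm]
  rfl

end P365T2.H985
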